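import Vale.Agent.Lib.P362.Defs

/-! P362, upper bound `alpha_tot ≤ 4` (known): statements of the parts. -/

namespace P362.Up

/-- flip the bits in `S` -/
def flip {V : Type} [DecidableEq V] (x : V → Bool) (S : Finset V) : V → Bool :=
  fun i => xor (x i) (decide (i ∈ S))

/-- alternating sum over the subcube through `z` with directions `S` -/
def alt {V : Type} [DecidableEq V] (f : (V → Bool) → Bool) (S : Finset V) (z : V → Bool) : ℤ :=
  ∑ A ∈ S.powerset, (-1) ^ A.card * (if f (flip z A) then 1 else 0)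

/-- block sensitivity at most `b` -/
def BsLE {V : Type} [DecidableEq V] (f : (V → Bool) → Bool) (b : ℕ) : Prop :=
  ∀ x, ∀ F : Finset (Finset V), (∀ B ∈ F, ∀ B' ∈ F, B ≠ B' → Disjoint B B') →
    (∀ B ∈ F, f (flip x B) ≠ f x) → F.card ≤ b

/-- degree at most `d` -/
def DegLE {V : Type} [DecidableEq V] (f : (V → Bool) → Bool) (d : ℕ) : Prop :=
  ∀ S : Finset V, d < S.card → ∀ z, alt f S z = 0

/-- `D ≤ bs * deg` -/
def PartUD : Prop :=
  ∀ (V : Type) [Fintype V] [DecidableEq V] (f : (V → Bool) → Bool) (b d : ℕ),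
    BsLE f b → DegLE f d → ∃ t : DT V Bool, t.depth ≤ b * d ∧ ∀ x, t.eval x = f x

/-- Huang: `sqrt deg ≤ lambda` -/
def PartUH : Prop :=
  ∀ (V : Type) [Fintype V] [DecidableEq V] (f : (V → Bool) → Bool) (S : Finset V)
    (z : V → Bool), alt f S z ≠ 0 →
    ∃ α : (V → Bool) → ℝ, (∀ x, 0 ≤ α x) ∧ 0 < ∑ x, α x ^ 2 ∧
      Real.sqrt S.card * ∑ x, α x ^ 2 ≤
        ∑ x, ∑ i ∈ S, (if f (flip x {i}) ≠ f x then α x * α (flip x {i}) else 0)

/-- adversary bound for the sensitivity graph -/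
def PartUA : Prop :=
  ∃ C : ℕ, ∀ (V : Type) [Fintype V] [DecidableEq V] (f : (V → Bool) → Bool) (T : ℕ),
    QuantComputes T f → ∀ α : (V → Bool) → ℝ, (∀ x, 0 ≤ α x) →
      ∑ x, ∑ i, (if f (flip x {i}) ≠ f x then α x * α (flip x {i}) else 0) ≤
        C * T * ∑ x, α x ^ 2

/-- `bs ≤ C Q^2` -/
def PartUB : Prop :=
  ∃ C : ℕ, ∀ (V : Type) [Fintype V] [DecidableEq V] (f : (V → Bool) → Bool) (T : ℕ),
    QuantComputes T f → BsLE f (C * T ^ 2)

/-- conclusion -/
def PartUp : Prop :=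
  ∃ C : ℕ, ∀ (V : Type) [Fintype V] [DecidableEq V] (f : (V → Bool) → Bool) (T : ℕ),
    QuantComputes T f → RandComputes (C * T ^ 4) f

end P362.Up
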