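import Vale.Agent.Lib.P362.Defs

/-! P362, upper bound, U2: the hybrid argument for blocks. -/

namespace P362.Up

open scoped Classical

/-- squared `ℓ²` norm -/
noncomputable def nsq {ι : Type} [Fintype ι] (ψ : ι → ℂ) : ℝ := ∑ p, ‖ψ p‖ ^ 2

/-- `ℓ²` norm -/
noncomputable def nrm {ι : Type} [Fintype ι] (ψ : ι → ℂ) : ℝ := Real.sqrt (nsq ψ)

section Norm

variable {ι : Type} [Fintype ι]

theorem nsq_nonneg (ψ : ι → ℂ) : 0 ≤ nsq ψ := Finset.sum_nonneg fun _ _ => by positivity

theorem nrm_nonneg (ψ : ι → ℂ) : 0 ≤ nrm ψ := Real.sqrt_nonneg _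

theorem nrm_sq (ψ : ι → ℂ) : nrm ψ ^ 2 = nsq ψ := Real.sq_sqrt (nsq_nonneg ψ)

theorem nrm_eq (ψ : ι → ℂ) : nrm ψ = ‖(WithLp.toLp 2 ψ : EuclideanSpace ℂ ι)‖ := by
  rw [EuclideanSpace.norm_eq]
  rfl

theorem nrm_add_le (ψ φ : ι → ℂ) : nrm (fun p => ψ p + φ p) ≤ nrm ψ + nrm φ := by
  rw [nrm_eq, nrm_eq, nrm_eq]
  exact norm_add_le (WithLp.toLp 2 ψ : EuclideanSpace ℂ ι) (WithLp.toLp 2 φ)

theorem nsq_mulVec [DecidableEq ι] {U : Matrix ι ι ℂ} (hU : U ∈ Matrix.unitaryGroup ι ℂ)
    (ψ : ι → ℂ) : nsq (U.mulVec ψ) = nsq ψ := by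
  have h1 : ∀ φ : ι → ℂ, ((nsq φ : ℝ) : ℂ) = star φ ⬝ᵥ φ := by
    intro φ
    unfold nsq dotProduct
    push_cast
    refine Finset.sum_congr rfl fun p _ => ?_
    rw [Pi.star_apply]
    exact (Complex.conj_mul' (φ p)).symm
  have h2 : ((nsq (U.mulVec ψ) : ℝ) : ℂ) = ((nsq ψ : ℝ) : ℂ) := by
    rw [h1, h1, Matrix.star_mulVec, ← Matrix.dotProduct_mulVec, Matrix.mulVec_mulVec,
      ← Matrix.star_eq_conjTranspose, Matrix.mem_unitaryGroup_iff'.1 hU, Matrix.one_mulVec]
  exact_mod_cast h2

theorem nrm_mulVec [DecidableEq ι] {U : Matrix ι ι ℂ} (hU : U ∈ Matrix.unitaryGroup ι ℂ)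
    (ψ : ι → ℂ) : nrm (U.mulVec ψ) = nrm ψ := by
  unfold nrm
  rw [nsq_mulVec hU]

end Norm

section Alg

variable {V : Type} [Fintype V] [DecidableEq V] {T : ℕ}

omit [DecidableEq V] in
theorem nsq_oracle {W : Type} [Fintype W] (x : V → Bool) (ψ : V × Bool × W → ℂ) :
    nsq (oracle x ψ) = nsq ψ := by
  unfold nsq oracle
  let e : V × Bool × W ≃ V × Bool × W :=
    { toFun := fun p => (p.1, xor p.2.1 (x p.1), p.2.2)
      invFun := fun p => (p.1, xor p.2.1 (x p.1), p.2.2)
      left_inv := fun p => by simp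
      right_inv := fun p => by simp }
  exact Equiv.sum_comp e fun p => ‖ψ p‖ ^ 2

theorem nsq_state {R : Type} (A : QAlg V R T) (x : V → Bool) (t : ℕ) : nsq (A.state x t) = 1 := by
  induction t with
  | zero =>
    change nsq ((A.U 0).mulVec A.init) = 1
    rw [nsq_mulVec (A.unitary 0)]
    exact A.init_norm
  | succ t ih =>
    change nsq ((A.U (Fin.ofNat (T + 1) (t + 1))).mulVec (oracle x (A.state x t))) = 1
    rw [nsq_mulVec (A.unitary _), nsq_oracle, ih]

/-- weight of the query register on the set `B` -/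
noncomputable def mass {W : Type} [Fintype W] (B : Finset V) (ψ : V × Bool × W → ℂ) : ℝ :=
  ∑ p, if p.1 ∈ B then ‖ψ p‖ ^ 2 else 0

/-- input with the block `B` flipped -/
def flipB (x : V → Bool) (B : Finset V) : V → Bool := fun v => xor (x v) (decide (v ∈ B))

theorem nsq_oracle_sub {W : Type} [Fintype W] (x : V → Bool) (B : Finset V)
    (ψ : V × Bool × W → ℂ) :
    nsq (fun p => oracle (flipB x B) ψ p - oracle x ψ p) ≤ 4 * mass B ψ := by
  have h1 : ∀ p : V × Bool × W, ‖oracle (flipB x B) ψ p - oracle x ψ p‖ ^ 2 ≤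
      2 * (if p.1 ∈ B then ‖ψ (p.1, xor p.2.1 (!x p.1), p.2.2)‖ ^ 2 else 0) +
        2 * (if p.1 ∈ B then ‖ψ (p.1, xor p.2.1 (x p.1), p.2.2)‖ ^ 2 else 0) := by
    intro p
    by_cases hp : p.1 ∈ B
    · rw [if_pos hp, if_pos hp]
      have h2 : flipB x B p.1 = !x p.1 := by
        unfold flipB
        rw [decide_eq_true hp]
        simp
      unfold oracle
      rw [h2]
      have h3 := norm_sub_le (ψ (p.1, xor p.2.1 (!x p.1), p.2.2))
        (ψ (p.1, xor p.2.1 (x p.1), p.2.2))
      have h4 := norm_nonneg (ψ (p.1, xor p.2.1 (!x p.1), p.2.2) -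
        ψ (p.1, xor p.2.1 (x p.1), p.2.2))
      nlinarith [sq_nonneg (‖ψ (p.1, xor p.2.1 (!x p.1), p.2.2)‖ -
        ‖ψ (p.1, xor p.2.1 (x p.1), p.2.2)‖), norm_nonneg (ψ (p.1, xor p.2.1 (!x p.1), p.2.2)),
        norm_nonneg (ψ (p.1, xor p.2.1 (x p.1), p.2.2))]
    · rw [if_neg hp, if_neg hp]
      have h2 : flipB x B p.1 = x p.1 := by
        unfold flipB
        rw [decide_eq_false hp]
        simp
      unfold oracle
      rw [h2, sub_self]
      simp
  have key : ∀ y : V → Bool, (∑ p : V × Bool × W,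
      if p.1 ∈ B then ‖ψ (p.1, xor p.2.1 (y p.1), p.2.2)‖ ^ 2 else 0) = mass B ψ := by
    intro y
    let e : V × Bool × W ≃ V × Bool × W :=
      { toFun := fun p => (p.1, xor p.2.1 (y p.1), p.2.2)
        invFun := fun p => (p.1, xor p.2.1 (y p.1), p.2.2)
        left_inv := fun p => by simp
        right_inv := fun p => by simp }
    exact Equiv.sum_comp e fun p => if p.1 ∈ B then ‖ψ p‖ ^ 2 else 0
  calc nsq (fun p => oracle (flipB x B) ψ p - oracle x ψ p) ≤
      ∑ p : V × Bool × W, (2 * (if p.1 ∈ B then ‖ψ (p.1, xor p.2.1 (!x p.1), p.2.2)‖ ^ 2 else 0) +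
        2 * (if p.1 ∈ B then ‖ψ (p.1, xor p.2.1 (x p.1), p.2.2)‖ ^ 2 else 0)) :=
        Finset.sum_le_sum fun p _ => h1 p
    _ = 2 * mass B ψ + 2 * mass B ψ := by
        rw [Finset.sum_add_distrib, ← Finset.mul_sum, ← Finset.mul_sum, key x,
          key (fun v => !x v)]
    _ = 4 * mass B ψ := by ring

theorem mass_nonneg {W : Type} [Fintype W] (B : Finset V) (ψ : V × Bool × W → ℂ) :
    0 ≤ mass B ψ := Finset.sum_nonneg fun p _ => by split_ifs <;> positivity

/-- total mass of disjoint blocks -/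
theorem sum_mass_le {W : Type} [Fintype W] {J : Type} [Fintype J] (B : J → Finset V)
    (hB : Pairwise fun i j => Disjoint (B i) (B j)) (ψ : V × Bool × W → ℂ) :
    ∑ j, mass (B j) ψ ≤ nsq ψ := by
  unfold mass nsq
  rw [Finset.sum_comm]
  refine Finset.sum_le_sum fun p _ => ?_
  by_cases h : ∃ j, p.1 ∈ B j
  · obtain ⟨j, hj⟩ := h
    rw [Finset.sum_eq_single j]
    · rw [if_pos hj]
    · intro i _ hij
      rw [if_neg]
      intro hi
      exact Finset.disjoint_left.1 (hB hij) hi hj
    · intro h; exact absurd (Finset.mem_univ _) h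
  · push Not at h
    rw [Finset.sum_eq_zero]
    · positivity
    · intro j _
      rw [if_neg (h j)]

/-- hybrid argument: distance of the states -/
theorem nrm_state_sub {R : Type} (A : QAlg V R T) (x : V → Bool) (B : Finset V) (t : ℕ) :
    nrm (fun p => A.state (flipB x B) t p - A.state x t p) ≤
      ∑ s ∈ Finset.range t, 2 * Real.sqrt (mass B (A.state x s)) := by
  induction t with
  | zero =>
    have : (fun p => A.state (flipB x B) 0 p - A.state x 0 p) = fun _ => 0 := by
      funext p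
      exact sub_self _
    rw [this]
    simp [nrm, nsq]
  | succ t ih =>
    rw [Finset.sum_range_succ]
    have h1 : (fun p => A.state (flipB x B) (t + 1) p - A.state x (t + 1) p) =
        (A.U (Fin.ofNat (T + 1) (t + 1))).mulVec
          (fun p => oracle (flipB x B) (A.state (flipB x B) t) p - oracle x (A.state x t) p) := by
      have : (fun p => oracle (flipB x B) (A.state (flipB x B) t) p - oracle x (A.state x t) p) =
          oracle (flipB x B) (A.state (flipB x B) t) - oracle x (A.state x t) := rfl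
      rw [this, Matrix.mulVec_sub]
      rfl
    rw [h1, nrm_mulVec (A.unitary _)]
    have h2 : (fun p => oracle (flipB x B) (A.state (flipB x B) t) p - oracle x (A.state x t) p) =
        fun p => (fun p => oracle (flipB x B)
          (fun q => A.state (flipB x B) t q - A.state x t q) p) p +
          (fun p => oracle (flipB x B) (A.state x t) p - oracle x (A.state x t) p) p := by
      funext p
      unfold oracle
      ring
    rw [h2]
    refine (nrm_add_le _ _).trans (add_le_add ?_ ?_)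
    · have : nrm (fun p => oracle (flipB x B)
          (fun q => A.state (flipB x B) t q - A.state x t q) p) =
          nrm (fun q => A.state (flipB x B) t q - A.state x t q) := by
        unfold nrm
        exact congrArg Real.sqrt (nsq_oracle _ _)
      rw [this]
      exact ih
    · have h3 := nsq_oracle_sub x B (A.state x t)
      calc nrm (fun p => oracle (flipB x B) (A.state x t) p - oracle x (A.state x t) p) ≤
          Real.sqrt (4 * mass B (A.state x t)) := Real.sqrt_le_sqrt h3
        _ = 2 * Real.sqrt (mass B (A.state x t)) := by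
          rw [Real.sqrt_mul (by norm_num)]
          congr 1
          rw [show (4 : ℝ) = 2 ^ 2 by norm_num, Real.sqrt_sq (by norm_num)]

/-- output probabilities are close when the states are close -/
theorem prob_sub_le {R : Type} [DecidableEq R] (A : QAlg V R T) (x y : V → Bool) (r : R) :
    A.prob x r - A.prob y r ≤ 2 * nrm (fun p => A.state x T p - A.state y T p) := by
  have h1 : A.prob x r - A.prob y r ≤
      ∑ p, ‖A.state x T p - A.state y T p‖ * (‖A.state x T p‖ + ‖A.state y T p‖) := by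
    unfold QAlg.prob
    rw [← Finset.sum_sub_distrib]
    refine Finset.sum_le_sum fun p _ => ?_
    split_ifs
    · have h2 := abs_norm_sub_norm_le (A.state x T p) (A.state y T p)
      have h3 := (abs_le.1 h2).2
      nlinarith [norm_nonneg (A.state x T p), norm_nonneg (A.state y T p)]
    · rw [sub_self]
      positivity
  have h2 : ∑ p, ‖A.state x T p - A.state y T p‖ * (‖A.state x T p‖ + ‖A.state y T p‖) ≤
      nrm (fun p => A.state x T p - A.state y T p) *
        Real.sqrt (∑ p, (‖A.state x T p‖ + ‖A.state y T p‖) ^ 2) := by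
    unfold nrm nsq
    exact Real.sum_mul_le_sqrt_mul_sqrt _ _ _
  have h3 : ∑ p, (‖A.state x T p‖ + ‖A.state y T p‖) ^ 2 ≤ 4 := by
    calc ∑ p, (‖A.state x T p‖ + ‖A.state y T p‖) ^ 2 ≤
        ∑ p, (2 * ‖A.state x T p‖ ^ 2 + 2 * ‖A.state y T p‖ ^ 2) := by
          refine Finset.sum_le_sum fun p _ => ?_
          nlinarith [sq_nonneg (‖A.state x T p‖ - ‖A.state y T p‖)]
      _ = 2 * nsq (A.state x T) + 2 * nsq (A.state y T) := by
          rw [Finset.sum_add_distrib, ← Finset.mul_sum, ← Finset.mul_sum]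
          rfl
      _ = 4 := by rw [nsq_state, nsq_state]; norm_num
  have h4 : Real.sqrt (∑ p, (‖A.state x T p‖ + ‖A.state y T p‖) ^ 2) ≤ 2 := by
    rw [show (2 : ℝ) = Real.sqrt 4 by
      rw [show (4 : ℝ) = 2 ^ 2 by norm_num, Real.sqrt_sq (by norm_num)]]
    exact Real.sqrt_le_sqrt h3
  have h5 := nrm_nonneg (fun p => A.state x T p - A.state y T p)
  nlinarith

theorem prob_sum {R : Type} [Fintype R] [DecidableEq R] (A : QAlg V R T) (x : V → Bool) :
    ∑ r, A.prob x r = 1 := by
  unfold QAlg.prob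
  rw [Finset.sum_comm, ← nsq_state A x T]
  unfold nsq
  refine Finset.sum_congr rfl fun p _ => ?_
  rw [Finset.sum_ite_eq]
  simp

theorem prob_bool (A : QAlg V Bool T) (x : V → Bool) (r : Bool) :
    A.prob x r + A.prob x (!r) = 1 := by
  have h := prob_sum A x
  rw [Fintype.sum_bool] at h
  cases r
  · rw [Bool.not_false]; linarith
  · rw [Bool.not_true]; linarith

/-- U2: sensitive disjoint blocks -/
theorem block_bound (A : QAlg V Bool T) (f : (V → Bool) → Bool)
    (hA : ∀ x, 2 / 3 ≤ A.prob x (f x)) (x : V → Bool) {J : Type} [Fintype J]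
    (B : J → Finset V) (hB : Pairwise fun i j => Disjoint (B i) (B j))
    (hf : ∀ j, f (flipB x (B j)) ≠ f x) : (Fintype.card J : ℝ) ≤ 144 * (T : ℝ) ^ 2 := by
  have h1 : ∀ j, 1 / 144 ≤ (T : ℝ) * ∑ s ∈ Finset.range T, mass (B j) (A.state x s) := by
    intro j
    have h2 := prob_sub_le A (flipB x (B j)) x (f (flipB x (B j)))
    have h3 := nrm_state_sub A x (B j) T
    have h4 : f (flipB x (B j)) = !f x := by
      have := hf j
      cases h5 : f x <;> cases h6 : f (flipB x (B j)) <;> simp_all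
    have h5 := hA (flipB x (B j))
    have h6 := hA x
    have h7 := prob_bool A x (f x)
    rw [h4] at h2 h5
    have h8 : 1 / 6 ≤ nrm (fun p => A.state (flipB x (B j)) T p - A.state x T p) := by
      linarith
    have h9 : 1 / 12 ≤ ∑ s ∈ Finset.range T, Real.sqrt (mass (B j) (A.state x s)) := by
      rw [← Finset.mul_sum] at h3
      linarith
    have h10 : (∑ s ∈ Finset.range T, Real.sqrt (mass (B j) (A.state x s))) ^ 2 ≤
        (T : ℝ) * ∑ s ∈ Finset.range T, mass (B j) (A.state x s) := by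
      have h11 := sq_sum_le_card_mul_sum_sq (s := Finset.range T)
        (f := fun s => Real.sqrt (mass (B j) (A.state x s)))
      rw [Finset.card_range] at h11
      refine h11.trans (le_of_eq ?_)
      congr 1
      exact Finset.sum_congr rfl fun s _ => Real.sq_sqrt (mass_nonneg _ _)
    nlinarith
  have h2 : (Fintype.card J : ℝ) * (1 / 144) ≤
      ∑ j, (T : ℝ) * ∑ s ∈ Finset.range T, mass (B j) (A.state x s) := by
    calc (Fintype.card J : ℝ) * (1 / 144) = ∑ _j : J, (1 / 144 : ℝ) := by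
          rw [Finset.sum_const, Finset.card_univ, nsmul_eq_mul]
      _ ≤ _ := Finset.sum_le_sum fun j _ => h1 j
  have h3 : ∑ j, (T : ℝ) * ∑ s ∈ Finset.range T, mass (B j) (A.state x s) ≤ (T : ℝ) * T := by
    rw [← Finset.mul_sum, Finset.sum_comm]
    refine mul_le_mul_of_nonneg_left ?_ (Nat.cast_nonneg _)
    calc ∑ s ∈ Finset.range T, ∑ j, mass (B j) (A.state x s) ≤
        ∑ s ∈ Finset.range T, 1 := by
          refine Finset.sum_le_sum fun s _ => ?_
          rw [← nsq_state A x s]
          exact sum_mass_le B hB _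
      _ = T := by simp
  nlinarith

end Alg

end P362.Up
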