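import Vale.Agent.Lib.P362.Up.Iface
import Vale.Agent.Lib.P362.Up.U2

/-! P362, upper bound, PartUB: `bs ≤ C Q^2`. -/

namespace P362.Up

theorem partUB : PartUB := by
  refine ⟨144, fun V _ _ f T hQ x F hF hf => ?_⟩
  obtain ⟨A, hA⟩ := hQ
  have h := block_bound A f hA x (J := {B // B ∈ F}) (fun B => B.1)
    (fun B B' hne => hF B.1 B.2 B'.1 B'.2 fun h => hne (Subtype.ext h))
    (fun B => hf B.1 B.2)
  rw [Fintype.card_coe] at h
  exact_mod_cast h

end P362.Up
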