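import Vale.Agent.Lib.P362.Up.Iface
import Vale.Agent.Lib.P362.Upper.U3

/-! P362, upper bound: `PartUH` (of `Up/Iface`) from the theorem of Huang (`P362.PartUH` of
`Upper/Stmt`). -/

namespace P362.Up

theorem partUH (h : P362.PartUH) : PartUH := by
  intro V _ _ f S z hz
  obtain ⟨v, hv0, hvpos, hv⟩ := P362.u3_core h f S z hz
  refine ⟨v, hv0, hvpos, hv.trans (le_of_eq ?_)⟩
  refine Finset.sum_congr rfl fun x _ => Finset.sum_congr rfl fun i _ => ?_
  have e : flip x {i} = P362.flipS {i} x := rfl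
  rw [e]
  by_cases hx : f x = f (P362.flipS {i} x)
  · rw [if_neg (not_not.2 hx), if_neg (not_not.2 hx.symm)]
  · rw [if_pos hx, if_pos fun h2 => hx h2.symm]

end P362.Up
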